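import Mathlib

namespace Vale.Agent.Results.P322.SensitiveMatching

open Finset

/-- `flipAt x i` is the point of the cube obtained from `x` by flipping coordinate `i`. -/
def flipAt {n : ℕ} (x : Fin n → Bool) (i : Fin n) : Fin n → Bool :=
  Function.update x i (!(x i))

/-- `chan ε x y` is the probability that `n` independent binary symmetric channels with
crossover probability `ε` output `y` on input `x`. -/
noncomputable def chan {n : ℕ} (ε : ℝ) (x y : Fin n → Bool) : ℝ :=
  ∏ i, if x i = y i then 1 - ε else ε

/-- `joint f ε b y` is the joint probability of `f(X) = b` and `Y = y`, where `X` is uniform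
on the cube and `Y` is the output of the channels on input `X`. -/
noncomputable def joint {n : ℕ} (f : (Fin n → Bool) → Bool) (ε : ℝ) (b : Bool)
    (y : Fin n → Bool) : ℝ :=
  ∑ x, if f x = b then (1 / 2 : ℝ) ^ n * chan ε x y else 0

/-- The mutual information `I(f(X);Y)` in bits, computed from the joint distribution `joint`
and its two marginals. -/
noncomputable def mutualInfo {n : ℕ} (f : (Fin n → Bool) → Bool) (ε : ℝ) : ℝ :=
  ∑ b, ∑ y, joint f ε b y *
    Real.logb 2 (joint f ε b y / ((∑ y', joint f ε b y') * (∑ b', joint f ε b' y)))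

theorem flipAt_flipAt {n : ℕ} (x : Fin n → Bool) (i : Fin n) : flipAt (flipAt x i) i = x := by
  unfold flipAt
  ext j
  by_cases h : j = i
  · subst h
    simp
  · simp [Function.update_of_ne h]

theorem chan_sum {n : ℕ} (ε : ℝ) (y : Fin n → Bool) : ∑ x, chan ε x y = 1 := by
  unfold chan
  have h := Finset.prod_univ_sum (fun (_ : Fin n) => (Finset.univ : Finset Bool))
    (fun (i : Fin n) (b : Bool) => if b = y i then 1 - ε else ε)
  rw [Fintype.piFinset_univ] at h
  rw [← h]
  apply Finset.prod_eq_one
  intro i _
  rw [Fintype.sum_bool]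
  cases y i <;> simp

theorem chan_nonneg {n : ℕ} (ε : ℝ) (h0 : 0 ≤ ε) (h1 : ε ≤ 1 / 2) (x y : Fin n → Bool) :
    0 ≤ chan ε x y := by
  unfold chan
  apply Finset.prod_nonneg
  intro i _
  split_ifs <;> linarith

theorem chan_flip {n : ℕ} (ε : ℝ) (h0 : 0 ≤ ε) (h1 : ε ≤ 1 / 2) (x y : Fin n → Bool)
    (i : Fin n) : ε * (chan ε x y + chan ε (flipAt x i) y) ≤ chan ε x y := by
  unfold chan
  rw [← Finset.mul_prod_erase Finset.univ _ (Finset.mem_univ i),
    ← Finset.mul_prod_erase Finset.univ (fun j => if flipAt x i j = y j then 1 - ε else ε)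
      (Finset.mem_univ i)]
  have hR : ∏ j ∈ Finset.univ.erase i, (if flipAt x i j = y j then 1 - ε else ε)
      = ∏ j ∈ Finset.univ.erase i, (if x j = y j then 1 - ε else ε) := by
    apply Finset.prod_congr rfl
    intro j hj
    have hne : j ≠ i := Finset.ne_of_mem_erase hj
    unfold flipAt
    rw [Function.update_of_ne hne]
  rw [hR]
  have hRnn : 0 ≤ ∏ j ∈ Finset.univ.erase i, (if x j = y j then 1 - ε else ε) := by
    apply Finset.prod_nonneg
    intro j _
    split_ifs <;> linarith
  have hflip : flipAt x i i = !(x i) := by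
    unfold flipAt
    simp
  rw [hflip]
  set R := ∏ j ∈ Finset.univ.erase i, (if x j = y j then 1 - ε else ε) with hRdef
  by_cases hxy : x i = y i
  · have hn : ¬ ((!(x i)) = y i) := by
      rw [hxy]
      cases y i <;> simp
    rw [if_pos hxy, if_neg hn]
    nlinarith
  · have hn : (!(x i)) = y i := by
      revert hxy
      cases x i <;> cases y i <;> simp
    rw [if_neg hxy, if_pos hn]
    nlinarith

/-- `post f ε b y` is the conditional probability of `f(X) = b` given `Y = y`. -/
noncomputable def post {n : ℕ} (f : (Fin n → Bool) → Bool) (ε : ℝ) (b : Bool)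
    (y : Fin n → Bool) : ℝ :=
  ∑ x, if f x = b then chan ε x y else 0

theorem post_add {n : ℕ} (f : (Fin n → Bool) → Bool) (ε : ℝ) (y : Fin n → Bool) :
    post f ε true y + post f ε false y = 1 := by
  unfold post
  rw [← Finset.sum_add_distrib, ← chan_sum ε y]
  apply Finset.sum_congr rfl
  intro x _
  cases f x <;> simp

theorem post_ge {n : ℕ} (f : (Fin n → Bool) → Bool)
    (m : (Fin n → Bool) → Fin n)
    (hm : ∀ x, m (flipAt x (m x)) = m x ∧ f (flipAt x (m x)) ≠ f x)
    (ε : ℝ) (h0 : 0 ≤ ε) (h1 : ε ≤ 1 / 2) (b : Bool) (y : Fin n → Bool) :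
    ε ≤ post f ε b y := by
  have hinv : ∀ x, flipAt (flipAt x (m x)) (m (flipAt x (m x))) = x := by
    intro x
    rw [(hm x).1]
    exact flipAt_flipAt x (m x)
  let σ : (Fin n → Bool) ≃ (Fin n → Bool) :=
    { toFun := fun x => flipAt x (m x)
      invFun := fun x => flipAt x (m x)
      left_inv := hinv
      right_inv := hinv }
  have hσ : ∀ x, σ x = flipAt x (m x) := fun _ => rfl
  have hswap : post f ε (!b) y = ∑ x, if f x = b then chan ε (σ x) y else 0 := by
    unfold post
    rw [← Equiv.sum_comp σ]
    apply Finset.sum_congr rfl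
    intro x _
    have hne := (hm x).2
    rw [← hσ x] at hne
    by_cases hb : f x = b
    · have : f (σ x) = !b := by
        revert hne
        rw [hb]
        cases f (σ x) <;> cases b <;> simp
      rw [if_pos this, if_pos hb]
    · have : ¬ (f (σ x) = !b) := by
        revert hne hb
        cases f (σ x) <;> cases b <;> cases f x <;> simp
      rw [if_neg this, if_neg hb]
  have htot : post f ε b y + post f ε (!b) y = 1 := by
    have := post_add f ε y
    cases b
    · simp only [Bool.not_false]
      linarith
    · simp only [Bool.not_true]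
      linarith
  have hle : ε * (post f ε b y + post f ε (!b) y) ≤ post f ε b y := by
    rw [hswap]
    unfold post
    rw [← Finset.sum_add_distrib, Finset.mul_sum]
    apply Finset.sum_le_sum
    intro x _
    by_cases hb : f x = b
    · rw [if_pos hb, if_pos hb, hσ x]
      exact chan_flip ε h0 h1 x y (m x)
    · rw [if_neg hb, if_neg hb]
      simp
  rw [htot, mul_one] at hle
  exact hle

theorem joint_eq {n : ℕ} (f : (Fin n → Bool) → Bool) (ε : ℝ) (b : Bool) (y : Fin n → Bool) :
    joint f ε b y = (1 / 2 : ℝ) ^ n * post f ε b y := by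
  unfold joint post
  rw [Finset.mul_sum]
  apply Finset.sum_congr rfl
  intro x _
  split_ifs <;> simp

theorem binEntropy_ge {ε a : ℝ} (h0 : 0 ≤ ε) (h1 : ε ≤ 1 / 2) (ha : ε ≤ a) (ha' : a ≤ 1 - ε) :
    Real.binEntropy ε ≤ Real.binEntropy a := by
  have hmono := Real.binEntropy_strictMonoOn.monotoneOn
  by_cases h : a ≤ 1 / 2
  · apply hmono
    · constructor <;> norm_num <;> linarith
    · constructor <;> norm_num <;> linarith
    · exact ha
  · push Not at h
    rw [← Real.binEntropy_one_sub a]
    apply hmono
    · constructor <;> norm_num <;> linarith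
    · constructor <;> norm_num <;> linarith
    · linarith

theorem term_eq (c a P : ℝ) (hc : 0 < c) (ha : 0 ≤ a) (hP : c * a ≤ P) :
    c * a * Real.logb 2 (c * a / (P * c)) =
      c * (a * Real.logb 2 a) - c * a * Real.logb 2 P := by
  by_cases h : a = 0
  · subst h
    simp
  · have hapos : 0 < a := lt_of_le_of_ne ha (Ne.symm h)
    have hPpos : 0 < P := lt_of_lt_of_le (mul_pos hc hapos) hP
    have : c * a / (P * c) = a / P := by
      field_simp
    rw [this, Real.logb_div h hPpos.ne']
    ring

theorem entropy_bits (p : ℝ) :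
    p * Real.logb 2 p + (1 - p) * Real.logb 2 (1 - p) = - (Real.binEntropy p / Real.log 2) := by
  unfold Real.binEntropy Real.logb
  rw [Real.log_inv, Real.log_inv]
  ring

/-- If the hypercube has a perfect matching consisting of edges along which `f` changes value
(given by `m`: the point `x` is matched with `flipAt x (m x)`), then the Courtade-Kumar
inequality `I(f(X);Y) ≤ 1 - h₂(ε)` holds for `f`, for every crossover probability
`ε ∈ [0, 1/2]`. -/
theorem result (n : ℕ) (f : (Fin n → Bool) → Bool)
    (hf : ∃ m : (Fin n → Bool) → Fin n,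
      ∀ x, m (flipAt x (m x)) = m x ∧ f (flipAt x (m x)) ≠ f x)
    (ε : ℝ) (h0 : 0 ≤ ε) (h1 : ε ≤ 1 / 2) :
    mutualInfo f ε ≤ 1 - Real.binEntropy ε / Real.log 2 := by
  obtain ⟨m, hm⟩ := hf
  set c : ℝ := (1 / 2 : ℝ) ^ n with hc
  have hcpos : 0 < c := by positivity
  have hlog2 : 0 < Real.log 2 := Real.log_pos (by norm_num)
  have hcard : ∑ _y : Fin n → Bool, c = 1 := by
    rw [Finset.sum_const, Finset.card_univ, Fintype.card_fun, Fintype.card_bool,
      Fintype.card_fin, nsmul_eq_mul, hc]
    push_cast
    rw [← mul_pow]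
    norm_num
  have hge : ∀ b y, ε ≤ post f ε b y := fun b y => post_ge f m hm ε h0 h1 b y
  have hnn : ∀ b y, 0 ≤ post f ε b y := fun b y => le_trans h0 (hge b y)
  have hadd : ∀ y, post f ε true y + post f ε false y = 1 := post_add f ε
  -- marginals
  have hY : ∀ y, ∑ b', joint f ε b' y = c := by
    intro y
    rw [Fintype.sum_bool, joint_eq, joint_eq, ← mul_add, hadd y, mul_one]
  set P : Bool → ℝ := fun b => ∑ y', joint f ε b y' with hPdef
  have hPle : ∀ b y, c * post f ε b y ≤ P b := by
    intro b y
    rw [hPdef]
    show c * post f ε b y ≤ ∑ y', joint f ε b y'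
    rw [← joint_eq]
    apply Finset.single_le_sum (f := fun y' => joint f ε b y')
    · intro y' _
      show 0 ≤ joint f ε b y'
      rw [joint_eq]
      exact mul_nonneg hcpos.le (hnn b y')
    · exact Finset.mem_univ y
  have hPsum : P true + P false = 1 := by
    rw [hPdef]
    show ∑ y', joint f ε true y' + ∑ y', joint f ε false y' = 1
    rw [← Finset.sum_add_distrib, ← hcard]
    apply Finset.sum_congr rfl
    intro y _
    have := hY y
    rw [Fintype.sum_bool] at this
    exact this
  have hPeq : ∀ b, P b = ∑ y, c * post f ε b y := by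
    intro b
    rw [hPdef]
    apply Finset.sum_congr rfl
    intro y _
    exact joint_eq f ε b y
  -- rewrite the mutual information
  have hI : mutualInfo f ε = ∑ b, ∑ y, (c * (post f ε b y * Real.logb 2 (post f ε b y))
      - c * post f ε b y * Real.logb 2 (P b)) := by
    unfold mutualInfo
    apply Finset.sum_congr rfl
    intro b _
    apply Finset.sum_congr rfl
    intro y _
    rw [hY y, joint_eq]
    exact term_eq c (post f ε b y) (P b) hcpos (hnn b y) (hPle b y)
  have hI2 : mutualInfo f ε =
      (∑ y, c * (∑ b, post f ε b y * Real.logb 2 (post f ε b y)))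
        - ∑ b, P b * Real.logb 2 (P b) := by
    rw [hI]
    simp only [Finset.sum_sub_distrib]
    congr 1
    · rw [Finset.sum_comm]
      apply Finset.sum_congr rfl
      intro y _
      rw [Finset.mul_sum]
    · apply Finset.sum_congr rfl
      intro b _
      rw [hPeq b, Finset.sum_mul]
  have hfirst : ∀ y, ∑ b, post f ε b y * Real.logb 2 (post f ε b y)
      = - (Real.binEntropy (post f ε true y) / Real.log 2) := by
    intro y
    rw [Fintype.sum_bool, ← entropy_bits]
    have : post f ε false y = 1 - post f ε true y := by linarith [hadd y]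
    rw [this]
  have hsecond : ∑ b, P b * Real.logb 2 (P b) = - (Real.binEntropy (P true) / Real.log 2) := by
    rw [Fintype.sum_bool, ← entropy_bits]
    have : P false = 1 - P true := by linarith
    rw [this]
  rw [hI2, hsecond]
  have hb1 : Real.binEntropy (P true) / Real.log 2 ≤ 1 := by
    rw [div_le_one hlog2]
    exact Real.binEntropy_le_log_two
  have hb2 : ∑ y, c * (∑ b, post f ε b y * Real.logb 2 (post f ε b y))
      ≤ - (Real.binEntropy ε / Real.log 2) := by
    have hstep : ∀ y, c * (∑ b, post f ε b y * Real.logb 2 (post f ε b y))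
        ≤ c * (- (Real.binEntropy ε / Real.log 2)) := by
      intro y
      apply mul_le_mul_of_nonneg_left _ hcpos.le
      rw [hfirst y]
      apply neg_le_neg
      apply div_le_div_of_nonneg_right _ hlog2.le
      apply binEntropy_ge h0 h1 (hge true y)
      have := hge false y
      linarith [hadd y]
    calc ∑ y, c * (∑ b, post f ε b y * Real.logb 2 (post f ε b y))
        ≤ ∑ _y : Fin n → Bool, c * (- (Real.binEntropy ε / Real.log 2)) :=
          Finset.sum_le_sum (fun y _ => hstep y)
      _ = - (Real.binEntropy ε / Real.log 2) := by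
          rw [← Finset.sum_mul, hcard, one_mul]
  linarith

end Vale.Agent.Results.P322.SensitiveMatching
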