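import Mathlib
import Vale.Agent.Results.P322.SensitiveMatching

namespace Vale.Agent.Results.P322.MatchedFractionBound

open Finset
open Vale.Agent.Results.P322.SensitiveMatching

theorem chan_symm {n : ℕ} (ε : ℝ) (x y : Fin n → Bool) : chan ε x y = chan ε y x := by
  unfold chan
  apply Finset.prod_congr rfl
  intro i _
  by_cases h : x i = y i
  · rw [if_pos h, if_pos h.symm]
  · rw [if_neg h, if_neg (fun h' => h h'.symm)]

theorem chan_sum_out {n : ℕ} (ε : ℝ) (x : Fin n → Bool) : ∑ y, chan ε x y = 1 := by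
  rw [← chan_sum ε x]
  apply Finset.sum_congr rfl
  intro y _
  exact chan_symm ε x y

theorem exists_scale (a w lo hi : ℝ) (hw : 0 ≤ w) (h1 : lo * w ≤ a) (h2 : a ≤ hi * w)
    (hlohi : lo ≤ hi) : ∃ θ, lo ≤ θ ∧ θ ≤ hi ∧ a = w * θ := by
  by_cases h : w = 0
  · subst h
    refine ⟨lo, le_refl _, hlohi, ?_⟩
    rw [mul_zero] at h1 h2
    rw [zero_mul]
    linarith
  · have hwpos : 0 < w := lt_of_le_of_ne hw (Ne.symm h)
    refine ⟨a / w, ?_, ?_, ?_⟩
    · rw [le_div_iff₀ hwpos]
      exact h1
    · rw [div_le_iff₀ hwpos]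
      exact h2
    · field_simp

theorem binEntropy_mix (ε a b w : ℝ) (h0 : 0 ≤ ε) (h1 : ε ≤ 1 / 2) (hw0 : 0 ≤ w) (hw1 : w ≤ 1)
    (ha1 : ε * w ≤ a) (ha2 : a ≤ (1 - ε) * w) (hb0 : 0 ≤ b) (hb1 : b ≤ 1 - w) :
    w * Real.binEntropy ε ≤ Real.binEntropy (a + b) := by
  obtain ⟨θ, hθ1, hθ2, haθ⟩ := exists_scale a w ε (1 - ε) hw0 ha1 ha2 (by linarith)
  obtain ⟨φ, hφ1, hφ2, hbφ⟩ := exists_scale b (1 - w) 0 1 (by linarith) (by linarith)
    (by linarith) (by norm_num)
  have hconc := Real.strictConcave_binEntropy.concaveOn.2 (x := θ) (y := φ)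
    ⟨by linarith, by linarith⟩ ⟨hφ1, hφ2⟩ hw0 (by linarith : (0 : ℝ) ≤ 1 - w) (by ring)
  simp only [smul_eq_mul] at hconc
  have e1 : Real.binEntropy ε ≤ Real.binEntropy θ := binEntropy_ge h0 h1 hθ1 hθ2
  have e2 : 0 ≤ Real.binEntropy φ := Real.binEntropy_nonneg hφ1 hφ2
  have e3 : w * Real.binEntropy ε ≤ w * Real.binEntropy θ := mul_le_mul_of_nonneg_left e1 hw0
  have e4 : 0 ≤ (1 - w) * Real.binEntropy φ := mul_nonneg (by linarith) e2
  rw [haθ, hbφ]
  linarith

/-- The pairing bound on the matched set: among the matched points, those with `f = b` carry at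
least an `ε`-fraction of the channel mass. -/
theorem matched_bound {n : ℕ} (f : (Fin n → Bool) → Bool) (D : Finset (Fin n → Bool))
    (σ : (Fin n → Bool) → (Fin n → Bool))
    (hσ : ∀ x ∈ D, σ x ∈ D ∧ σ (σ x) = x ∧ (∃ i, σ x = flipAt x i) ∧ f (σ x) ≠ f x)
    (ε : ℝ) (h0 : 0 ≤ ε) (h1 : ε ≤ 1 / 2) (b : Bool) (y : Fin n → Bool) :
    ε * (∑ x ∈ D, chan ε x y) ≤ ∑ x ∈ D, (if f x = b then chan ε x y else 0) := by
  have hmem : ∀ x ∈ D, σ x ∈ D := fun x hx => (hσ x hx).1
  have hinv : ∀ x ∈ D, σ (σ x) = x := fun x hx => (hσ x hx).2.1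
  have hswap : ∑ x ∈ D, (if f x = !b then chan ε x y else 0)
      = ∑ x ∈ D, (if f x = b then chan ε (σ x) y else 0) := by
    symm
    apply Finset.sum_nbij' σ σ hmem hmem hinv hinv
    intro x hx
    have hne : f (σ x) ≠ f x := (hσ x hx).2.2.2
    by_cases hb : f x = b
    · have : f (σ x) = !b := by
        revert hne
        rw [hb]
        cases f (σ x) <;> cases b <;> simp
      rw [if_pos hb, if_pos this]
    · have : ¬ (f (σ x) = !b) := by
        revert hne hb
        cases f (σ x) <;> cases b <;> cases f x <;> simp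
      rw [if_neg hb, if_neg this]
  have htot : ∑ x ∈ D, chan ε x y = ∑ x ∈ D, (if f x = b then chan ε x y else 0)
      + ∑ x ∈ D, (if f x = !b then chan ε x y else 0) := by
    rw [← Finset.sum_add_distrib]
    apply Finset.sum_congr rfl
    intro x _
    cases f x <;> cases b <;> simp
  rw [htot, hswap, ← Finset.sum_add_distrib, Finset.mul_sum]
  apply Finset.sum_le_sum
  intro x hx
  by_cases hb : f x = b
  · rw [if_pos hb, if_pos hb]
    obtain ⟨i, hi⟩ := (hσ x hx).2.2.1
    rw [hi]
    exact chan_flip ε h0 h1 x y i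
  · rw [if_neg hb, if_neg hb]
    simp

/-- Pointwise entropy bound: the conditional entropy of `f(X)` given `Y = y` is at least the
conditional probability that `X` is a matched point, times `h(ε)` (in nats). -/
theorem post_entropy_ge {n : ℕ} (f : (Fin n → Bool) → Bool) (D : Finset (Fin n → Bool))
    (σ : (Fin n → Bool) → (Fin n → Bool))
    (hσ : ∀ x ∈ D, σ x ∈ D ∧ σ (σ x) = x ∧ (∃ i, σ x = flipAt x i) ∧ f (σ x) ≠ f x)
    (ε : ℝ) (h0 : 0 ≤ ε) (h1 : ε ≤ 1 / 2) (y : Fin n → Bool) :
    (∑ x ∈ D, chan ε x y) * Real.binEntropy ε ≤ Real.binEntropy (post f ε true y) := by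
  have hpost : post f ε true y = ∑ x ∈ D, (if f x = true then chan ε x y else 0)
      + ∑ x ∈ Dᶜ, (if f x = true then chan ε x y else 0) := by
    unfold post
    exact (Finset.sum_add_sum_compl D _).symm
  have hw0 : 0 ≤ ∑ x ∈ D, chan ε x y :=
    Finset.sum_nonneg (fun x _ => chan_nonneg ε h0 h1 x y)
  have hwc : ∑ x ∈ D, chan ε x y + ∑ x ∈ Dᶜ, chan ε x y = 1 := by
    rw [Finset.sum_add_sum_compl, chan_sum]
  have hc0 : 0 ≤ ∑ x ∈ Dᶜ, chan ε x y :=
    Finset.sum_nonneg (fun x _ => chan_nonneg ε h0 h1 x y)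
  have ha1 := matched_bound f D σ hσ ε h0 h1 true y
  have ha1' := matched_bound f D σ hσ ε h0 h1 false y
  have hsplit : ∑ x ∈ D, chan ε x y = ∑ x ∈ D, (if f x = true then chan ε x y else 0)
      + ∑ x ∈ D, (if f x = false then chan ε x y else 0) := by
    rw [← Finset.sum_add_distrib]
    apply Finset.sum_congr rfl
    intro x _
    cases f x <;> simp
  have hb0 : 0 ≤ ∑ x ∈ Dᶜ, (if f x = true then chan ε x y else 0) := by
    apply Finset.sum_nonneg
    intro x _
    split_ifs
    · exact chan_nonneg ε h0 h1 x y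
    · exact le_refl 0
  have hb1 : ∑ x ∈ Dᶜ, (if f x = true then chan ε x y else 0) ≤ ∑ x ∈ Dᶜ, chan ε x y := by
    apply Finset.sum_le_sum
    intro x _
    split_ifs
    · exact le_refl _
    · exact chan_nonneg ε h0 h1 x y
  rw [hpost]
  exact binEntropy_mix ε _ _ _ h0 h1 hw0 (by linarith) ha1 (by linarith) hb0 (by linarith)

/-- The bound for one matching (`D` the set of matched points, `σ` the pairing). -/
theorem matching_bound (n : ℕ) (f : (Fin n → Bool) → Bool)
    (D : Finset (Fin n → Bool)) (σ : (Fin n → Bool) → (Fin n → Bool))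
    (hσ : ∀ x ∈ D, σ x ∈ D ∧ σ (σ x) = x ∧ (∃ i, σ x = flipAt x i) ∧ f (σ x) ≠ f x)
    (ε : ℝ) (h0 : 0 ≤ ε) (h1 : ε ≤ 1 / 2) :
    mutualInfo f ε ≤
        Real.binEntropy (((Finset.univ.filter (fun x => f x = true)).card : ℝ) / 2 ^ n)
            / Real.log 2
          - ((D.card : ℝ) / 2 ^ n) * (Real.binEntropy ε / Real.log 2) ∧
      ((1 - (D.card : ℝ) / 2 ^ n) * Real.binEntropy ε ≤ Real.log 2 -
            Real.binEntropy (((Finset.univ.filter (fun x => f x = true)).card : ℝ) / 2 ^ n) →
        mutualInfo f ε ≤ 1 - Real.binEntropy ε / Real.log 2) := by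
  set c : ℝ := (1 / 2 : ℝ) ^ n with hc
  have hcpos : 0 < c := by positivity
  have hlog2 : 0 < Real.log 2 := Real.log_pos (by norm_num)
  have hcard : ∑ _y : Fin n → Bool, c = 1 := by
    rw [Finset.sum_const, Finset.card_univ, Fintype.card_fun, Fintype.card_bool,
      Fintype.card_fin, nsmul_eq_mul, hc]
    push_cast
    rw [← mul_pow]
    norm_num
  have hnn : ∀ b y, 0 ≤ post f ε b y := by
    intro b y
    unfold post
    apply Finset.sum_nonneg
    intro x _
    split_ifs
    · exact chan_nonneg ε h0 h1 x y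
    · exact le_refl 0
  have hadd : ∀ y, post f ε true y + post f ε false y = 1 := post_add f ε
  -- marginals
  have hY : ∀ y, ∑ b', joint f ε b' y = c := by
    intro y
    rw [Fintype.sum_bool, joint_eq, joint_eq, ← mul_add, hadd y, mul_one]
  set P : Bool → ℝ := fun b => ∑ y', joint f ε b y' with hPdef
  have hPle : ∀ b y, c * post f ε b y ≤ P b := by
    intro b y
    rw [hPdef]
    show c * post f ε b y ≤ ∑ y', joint f ε b y'
    rw [← joint_eq]
    apply Finset.single_le_sum (f := fun y' => joint f ε b y')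
    · intro y' _
      show 0 ≤ joint f ε b y'
      rw [joint_eq]
      exact mul_nonneg hcpos.le (hnn b y')
    · exact Finset.mem_univ y
  have hPsum : P true + P false = 1 := by
    rw [hPdef]
    show ∑ y', joint f ε true y' + ∑ y', joint f ε false y' = 1
    rw [← Finset.sum_add_distrib, ← hcard]
    apply Finset.sum_congr rfl
    intro y _
    have := hY y
    rw [Fintype.sum_bool] at this
    exact this
  have hPeq : ∀ b, P b = ∑ y, c * post f ε b y := by
    intro b
    rw [hPdef]
    apply Finset.sum_congr rfl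
    intro y _
    exact joint_eq f ε b y
  -- rewrite the mutual information
  have hI : mutualInfo f ε = ∑ b, ∑ y, (c * (post f ε b y * Real.logb 2 (post f ε b y))
      - c * post f ε b y * Real.logb 2 (P b)) := by
    unfold mutualInfo
    apply Finset.sum_congr rfl
    intro b _
    apply Finset.sum_congr rfl
    intro y _
    rw [hY y, joint_eq]
    exact term_eq c (post f ε b y) (P b) hcpos (hnn b y) (hPle b y)
  have hI2 : mutualInfo f ε =
      (∑ y, c * (∑ b, post f ε b y * Real.logb 2 (post f ε b y)))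
        - ∑ b, P b * Real.logb 2 (P b) := by
    rw [hI]
    simp only [Finset.sum_sub_distrib]
    congr 1
    · rw [Finset.sum_comm]
      apply Finset.sum_congr rfl
      intro y _
      rw [Finset.mul_sum]
    · apply Finset.sum_congr rfl
      intro b _
      rw [hPeq b, Finset.sum_mul]
  have hfirst : ∀ y, ∑ b, post f ε b y * Real.logb 2 (post f ε b y)
      = - (Real.binEntropy (post f ε true y) / Real.log 2) := by
    intro y
    rw [Fintype.sum_bool, ← entropy_bits]
    have : post f ε false y = 1 - post f ε true y := by linarith [hadd y]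
    rw [this]
  have hsecond : ∑ b, P b * Real.logb 2 (P b) = - (Real.binEntropy (P true) / Real.log 2) := by
    rw [Fintype.sum_bool, ← entropy_bits]
    have : P false = 1 - P true := by linarith
    rw [this]
  -- the distribution of `f(X)`
  have hPtrue : P true = ((Finset.univ.filter (fun x => f x = true)).card : ℝ) / 2 ^ n := by
    rw [hPeq true, ← Finset.mul_sum]
    have hsum : ∑ y, post f ε true y
        = ((Finset.univ.filter (fun x => f x = true)).card : ℝ) := by
      unfold post
      rw [Finset.sum_comm, Finset.card_filter]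
      push_cast
      apply Finset.sum_congr rfl
      intro x _
      by_cases hx : f x = true
      · simp only [if_pos hx]
        exact chan_sum_out ε x
      · simp only [if_neg hx]
        simp
    rw [hsum, hc, one_div, inv_pow]
    ring
  -- the total matched mass
  have hW : ∑ y, c * (∑ x ∈ D, chan ε x y) = (D.card : ℝ) / 2 ^ n := by
    rw [← Finset.mul_sum, Finset.sum_comm]
    have hsum : ∑ x ∈ D, ∑ y, chan ε x y = (D.card : ℝ) := by
      rw [Finset.sum_congr rfl (fun x _ => chan_sum_out ε x)]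
      simp
    rw [hsum, hc, one_div, inv_pow]
    ring
  have hmain : mutualInfo f ε ≤ Real.binEntropy (P true) / Real.log 2
      - ((D.card : ℝ) / 2 ^ n) * (Real.binEntropy ε / Real.log 2) := by
    rw [hI2, hsecond]
    have hb2 : ∑ y, c * (∑ b, post f ε b y * Real.logb 2 (post f ε b y))
        ≤ - (((D.card : ℝ) / 2 ^ n) * (Real.binEntropy ε / Real.log 2)) := by
      have hstep : ∀ y, c * (∑ b, post f ε b y * Real.logb 2 (post f ε b y))
          ≤ - (c * (∑ x ∈ D, chan ε x y) * (Real.binEntropy ε / Real.log 2)) := by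
        intro y
        rw [hfirst y]
        have h3 := post_entropy_ge f D σ hσ ε h0 h1 y
        have h2 : (∑ x ∈ D, chan ε x y) * (Real.binEntropy ε / Real.log 2)
            ≤ Real.binEntropy (post f ε true y) / Real.log 2 := by
          rw [← mul_div_assoc]
          exact div_le_div_of_nonneg_right h3 hlog2.le
        have h4 := mul_le_mul_of_nonneg_left h2 hcpos.le
        linarith
      calc ∑ y, c * (∑ b, post f ε b y * Real.logb 2 (post f ε b y))
          ≤ ∑ y, - (c * (∑ x ∈ D, chan ε x y) * (Real.binEntropy ε / Real.log 2)) :=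
            Finset.sum_le_sum (fun y _ => hstep y)
        _ = - (((D.card : ℝ) / 2 ^ n) * (Real.binEntropy ε / Real.log 2)) := by
            rw [Finset.sum_neg_distrib, ← Finset.sum_mul, hW]
    linarith
  rw [hPtrue] at hmain
  refine ⟨hmain, ?_⟩
  intro hcond
  have hfin : Real.binEntropy (((Finset.univ.filter (fun x => f x = true)).card : ℝ) / 2 ^ n)
        / Real.log 2 - ((D.card : ℝ) / 2 ^ n) * (Real.binEntropy ε / Real.log 2)
      ≤ 1 - Real.binEntropy ε / Real.log 2 := by
    rw [← sub_nonneg]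
    have hrew : 1 - Real.binEntropy ε / Real.log 2
        - (Real.binEntropy (((Finset.univ.filter (fun x => f x = true)).card : ℝ) / 2 ^ n)
            / Real.log 2 - ((D.card : ℝ) / 2 ^ n) * (Real.binEntropy ε / Real.log 2))
        = (Real.log 2
            - Real.binEntropy (((Finset.univ.filter (fun x => f x = true)).card : ℝ) / 2 ^ n)
            - (1 - (D.card : ℝ) / 2 ^ n) * Real.binEntropy ε) / Real.log 2 := by
      field_simp
      ring
    rw [hrew]
    apply div_nonneg _ hlog2.le
    linarith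
  linarith

/-- For every Boolean function `f` on the cube `{0,1}^n` and every `ε ∈ [0, 1/2]`, with
`p = P(f(X) = 1) = |f⁻¹(1)|/2^n`:

* for every matching of the cube consisting of edges across which `f` changes value (`D` is the
  set of matched points and `σ` the pairing: `σ` maps `D` to `D`, is an involution on `D`, moves
  each point of `D` to a neighbour in the cube, and `f (σ x) ≠ f x`), with `μ = |D|/2^n` the
  fraction of the cube covered by the matching, `I(f(X);Y) ≤ h₂(p) - μ·h₂(ε)`; consequently the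
  Courtade-Kumar inequality `I(f(X);Y) ≤ 1 - h₂(ε)` holds whenever
  `(1 - μ)·h₂(ε) ≤ 1 - h₂(p)`;
* for every coordinate `i`, `I(f(X);Y) ≤ h₂(p) - Inf_i(f)·h₂(ε)`, where
  `Inf_i(f) = |{x : f(x ⊕ e_i) ≠ f(x)}|/2^n` is the influence of coordinate `i`. -/
theorem result (n : ℕ) (f : (Fin n → Bool) → Bool) (ε : ℝ) (h0 : 0 ≤ ε) (h1 : ε ≤ 1 / 2) :
    (∀ (D : Finset (Fin n → Bool)) (σ : (Fin n → Bool) → (Fin n → Bool)),
      (∀ x ∈ D, σ x ∈ D ∧ σ (σ x) = x ∧ (∃ i, σ x = flipAt x i) ∧ f (σ x) ≠ f x) →
        mutualInfo f ε ≤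
            Real.binEntropy (((Finset.univ.filter (fun x => f x = true)).card : ℝ) / 2 ^ n)
                / Real.log 2
              - ((D.card : ℝ) / 2 ^ n) * (Real.binEntropy ε / Real.log 2) ∧
          ((1 - (D.card : ℝ) / 2 ^ n) * Real.binEntropy ε ≤ Real.log 2 -
                Real.binEntropy
                  (((Finset.univ.filter (fun x => f x = true)).card : ℝ) / 2 ^ n) →
            mutualInfo f ε ≤ 1 - Real.binEntropy ε / Real.log 2)) ∧
    (∀ i : Fin n,
      mutualInfo f ε ≤
        Real.binEntropy (((Finset.univ.filter (fun x => f x = true)).card : ℝ) / 2 ^ n)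
            / Real.log 2
          - (((Finset.univ.filter (fun x => f (flipAt x i) ≠ f x)).card : ℝ) / 2 ^ n)
              * (Real.binEntropy ε / Real.log 2)) := by
  refine ⟨fun D σ hσ => matching_bound n f D σ hσ ε h0 h1, ?_⟩
  intro i
  refine (matching_bound n f (Finset.univ.filter (fun x => f (flipAt x i) ≠ f x))
    (fun x => flipAt x i) ?_ ε h0 h1).1
  intro x hx
  rw [Finset.mem_filter] at hx
  refine ⟨?_, flipAt_flipAt x i, ⟨i, rfl⟩, hx.2⟩
  rw [Finset.mem_filter]
  refine ⟨Finset.mem_univ _, ?_⟩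
  rw [flipAt_flipAt x i]
  exact fun h => hx.2 h.symm

end Vale.Agent.Results.P322.MatchedFractionBound
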